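import Vale.Agent.H55.TB.Main

/-!
Donaldson's tamed-to-compatible question on torus bundles over the circle, with the
Kodaira-Thurston manifold singled out.

(1) The statement of `A0_TorusBundles`: for `A ∈ SL(3, ℤ)` let `X_A` be the mapping torus, the
quotient of `ℝ⁴ = ℝ × ℝ³` by the `ℤ³`-translations of the last three coordinates and the deck
transformation `(t, y) ↦ (t + 1, A y)`.  An almost complex structure on `X_A` that is invariant
under the translations of the fibres and tamed by some symplectic form on `X_A` (no invariance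
assumed for the form) is compatible with a symplectic form on `X_A`.

(2) The same statement for the one matrix `A` with rows `(1, 1, 0)`, `(0, 1, 0)`, `(0, 0, 1)`,
whose mapping torus is the Kodaira-Thurston manifold.  It is a special case of (1).
-/

namespace Vale.Agent.Results.P204.A00_TorusBundlesKodairaThurston

open Matrix Vale.Agent.H55.Tamed Vale.Agent.H55.TB

theorem result :
    (∀ (A : Matrix (Fin 3) (Fin 3) ℤ), A.det = 1 →
      ∀ (J om : (Fin 4 → ℝ) → Matrix (Fin 4) (Fin 4) ℝ),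
        SmoothField J → (∀ x, J x * J x = -1) → FiberInvariant J →
        (∀ x, J (deck A x) * hat A = hat A * J x) →
        SmoothField om → (∀ x, (om x)ᵀ = -om x) →
        (∀ (x : Fin 4 → ℝ) (i : Fin 3), om (x + Pi.single i.succ 1) = om x) →
        (∀ x, (hat A)ᵀ * om (deck A x) * hat A = om x) →
        IsClosedForm om → Tames om J →
        ∃ om' : (Fin 4 → ℝ) → Matrix (Fin 4) (Fin 4) ℝ,
          SmoothField om' ∧ (∀ x, (om' x)ᵀ = -om' x) ∧ FiberInvariant om' ∧
          (∀ x, (hat A)ᵀ * om' (deck A x) * hat A = om' x) ∧ IsClosedForm om' ∧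
          Tames om' J ∧ ∀ x, (J x)ᵀ * om' x * J x = om' x) ∧
    (∀ (J om : (Fin 4 → ℝ) → Matrix (Fin 4) (Fin 4) ℝ),
        SmoothField J → (∀ x, J x * J x = -1) → FiberInvariant J →
        (∀ x, J (deck !![1, 1, 0; 0, 1, 0; 0, 0, 1] x) * hat !![1, 1, 0; 0, 1, 0; 0, 0, 1]
          = hat !![1, 1, 0; 0, 1, 0; 0, 0, 1] * J x) →
        SmoothField om → (∀ x, (om x)ᵀ = -om x) →
        (∀ (x : Fin 4 → ℝ) (i : Fin 3), om (x + Pi.single i.succ 1) = om x) →
        (∀ x, (hat !![1, 1, 0; 0, 1, 0; 0, 0, 1])ᵀ * om (deck !![1, 1, 0; 0, 1, 0; 0, 0, 1] x)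
          * hat !![1, 1, 0; 0, 1, 0; 0, 0, 1] = om x) →
        IsClosedForm om → Tames om J →
        ∃ om' : (Fin 4 → ℝ) → Matrix (Fin 4) (Fin 4) ℝ,
          SmoothField om' ∧ (∀ x, (om' x)ᵀ = -om' x) ∧ FiberInvariant om' ∧
          (∀ x, (hat !![1, 1, 0; 0, 1, 0; 0, 0, 1])ᵀ
            * om' (deck !![1, 1, 0; 0, 1, 0; 0, 0, 1] x)
            * hat !![1, 1, 0; 0, 1, 0; 0, 0, 1] = om' x) ∧ IsClosedForm om' ∧
          Tames om' J ∧ ∀ x, (J x)ᵀ * om' x * J x = om' x) := by
  refine ⟨fun A hA J om hJs hJ2 hJinv hJeq hos hskew hoper homeq hclosed htame =>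
    tb_main A hA J om hJs hJ2 hJinv hJeq hos hskew hoper homeq hclosed htame, ?_⟩
  intro J om hJs hJ2 hJinv hJeq hos hskew hoper homeq hclosed htame
  have hdet : (!![1, 1, 0; 0, 1, 0; 0, 0, 1] : Matrix (Fin 3) (Fin 3) ℤ).det = 1 := by
    simp [Matrix.det_fin_three]
  exact tb_main _ hdet J om hJs hJ2 hJinv hJeq hos hskew hoper homeq hclosed htame

end Vale.Agent.Results.P204.A00_TorusBundlesKodairaThurston
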