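import Vale.Agent.H55.TB.Main

/-!
Donaldson's tamed-to-compatible question on torus bundles over the circle.  For `A ∈ SL(3, ℤ)`
let `X_A` be the mapping torus: the quotient of `ℝ⁴ = ℝ × ℝ³` by the `ℤ³`-translations of the
last three coordinates and the deck transformation `(t, y) ↦ (t + 1, A y)`.  An almost complex
structure on `X_A` that is invariant under the translations of the fibres and tamed by some
symplectic form on `X_A` (no invariance assumed for the form) is compatible with a symplectic
form on `X_A`.  For `A = 1` this is the case of `T³`-invariant structures on the four-torus.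
-/

namespace Vale.Agent.Results.P204.A0_TorusBundles

open Matrix Vale.Agent.H55.Tamed Vale.Agent.H55.TB

theorem result (A : Matrix (Fin 3) (Fin 3) ℤ) (hA : A.det = 1)
    (J om : (Fin 4 → ℝ) → Matrix (Fin 4) (Fin 4) ℝ)
    (hJs : SmoothField J) (hJ2 : ∀ x, J x * J x = -1) (hJinv : FiberInvariant J)
    (hJeq : ∀ x, J (deck A x) * hat A = hat A * J x)
    (hos : SmoothField om) (hskew : ∀ x, (om x)ᵀ = -om x)
    (hoper : ∀ (x : Fin 4 → ℝ) (i : Fin 3), om (x + Pi.single i.succ 1) = om x)
    (homeq : ∀ x, (hat A)ᵀ * om (deck A x) * hat A = om x)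
    (hclosed : IsClosedForm om) (htame : Tames om J) :
    ∃ om' : (Fin 4 → ℝ) → Matrix (Fin 4) (Fin 4) ℝ,
      SmoothField om' ∧ (∀ x, (om' x)ᵀ = -om' x) ∧ FiberInvariant om' ∧
      (∀ x, (hat A)ᵀ * om' (deck A x) * hat A = om' x) ∧ IsClosedForm om' ∧
      Tames om' J ∧ ∀ x, (J x)ᵀ * om' x * J x = om' x :=
  tb_main A hA J om hJs hJ2 hJinv hJeq hos hskew hoper homeq hclosed htame

end Vale.Agent.Results.P204.A0_TorusBundles
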