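import Vale.Agent.H55.TamedGeneral

/-!
Donaldson's tamed-to-compatible question for `T³`-invariant almost complex structures on the
four-torus `ℝ⁴/ℤ⁴`: a `T³`-invariant almost complex structure that is tamed by some symplectic
form on the torus (no invariance assumed for the form) is compatible with a symplectic form.
-/

namespace Vale.Agent.Results.P204.A_InvariantJ

open Matrix Vale.Agent.H55.Tamed

theorem result (J om : (Fin 4 → ℝ) → Matrix (Fin 4) (Fin 4) ℝ)
    (hJs : SmoothField J) (hJ2 : ∀ x, J x * J x = -1) (hJinv : TorusInvariant J)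
    (hos : SmoothField om) (hskew : ∀ x, (om x)ᵀ = -om x)
    (hoper : ∀ (x : Fin 4 → ℝ) (i : Fin 4), om (x + Pi.single i 1) = om x)
    (hclosed : IsClosedForm om) (htame : Tames om J) :
    ∃ om' : (Fin 4 → ℝ) → Matrix (Fin 4) (Fin 4) ℝ,
      SmoothField om' ∧ (∀ x, (om' x)ᵀ = -om' x) ∧ TorusInvariant om' ∧ IsClosedForm om' ∧
      Tames om' J ∧ ∀ x, (J x)ᵀ * om' x * J x = om' x :=
  main_general J om hJs hJ2 hJinv hos hskew hoper hclosed htame

end Vale.Agent.Results.P204.A_InvariantJ
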